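import Vale.Agent.P280Z.Stmt

/-!
# P280Z: the second Betti number is at most one
-/

open scoped Manifold ContDiff Matrix
open Vale.Agent.P272.K

noncomputable section

namespace Vale.Agent.P280Z

/-- the derivative of `f` at `z` in the direction `v` -/
def dv {n : ℕ} (f : Cm n → ℝ) (z v : Cm n) : ℝ := fderiv ℝ f z v

/-- `f` is smooth at `z` -/
def Smo {n : ℕ} (f : Cm n → ℝ) (z : Cm n) : Prop := ContDiffAt ℝ ∞ f z

variable (n : ℕ) {X : Type} [TopologicalSpace X] [ChartedSpace (Cm n) X]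

/-- `u` is a closed smooth real 2-form, given in the charts -/
structure ClF (u : Chart n X → Cm n → Cm n → Cm n → ℝ) : Prop where
  lin : ∀ e x, At e x → ∀ v, IsLinearMap ℝ (u e (e x) v)
  alt : ∀ e x, At e x → ∀ v w, u e (e x) v w = -u e (e x) w v
  sm : ∀ e x, At e x → ∀ v w, Smo (fun z => u e z v w) (e x)
  chg : ∀ e e' x, At e x → At e' x → ∀ v w,
    u e (e x) v w = u e' (e' x) (jacM e e' x *ᵥ v) (jacM e e' x *ᵥ w)
  cls : ∀ e x, At e x → ∀ a b c, dv (fun z => u e z b c) (e x) a + dv (fun z => u e z c a) (e x) b +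
    dv (fun z => u e z a b) (e x) c = 0

/-- `u` is the differential of the smooth real 1-form `α` -/
structure DiF (α : Chart n X → Cm n → Cm n → ℝ) (u : Chart n X → Cm n → Cm n → Cm n → ℝ) : Prop where
  lin : ∀ e x, At e x → IsLinearMap ℝ (α e (e x))
  sm : ∀ e x, At e x → ∀ v, Smo (fun z => α e z v) (e x)
  chg : ∀ e e' x, At e x → At e' x → ∀ v, α e (e x) v = α e' (e' x) (jacM e e' x *ᵥ v)
  dif : ∀ e x, At e x → ∀ v w,
    u e (e x) v w = dv (fun z => α e z w) (e x) v - dv (fun z => α e z v) (e x) w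

variable (X)

/-- the second Betti number is at most one: two closed 2-forms have a nontrivial exact
combination -/
def Btwo : Prop :=
  ∀ u u' : Chart n X → Cm n → Cm n → Cm n → ℝ, ClF n u → ClF n u' →
    ∃ c c' : ℝ, (c ≠ 0 ∨ c' ≠ 0) ∧ ∃ α, DiF n α fun e z v w => c * u e z v w + c' * u' e z v w

end Vale.Agent.P280Z
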