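import Vale.Agent.P280Z.Fb.Bt

/-!
# P280Z: the two forms of the condition on the second Betti number
-/

open scoped Manifold ContDiff Matrix Topology
open Filter
open Vale.Agent.P272.K

noncomputable section

namespace Vale.Agent.P280Z.Fb

variable {n : ℕ} {X : Type} [TopologicalSpace X] [ChartedSpace (Cm n) X]

theorem dv1 {α : Cm n → Cm n →L[ℝ] ℝ} {z : Cm n} (h : DifferentiableAt ℝ α z) (v w : Cm n) :
    dv (fun y => α y w) z v = fderiv ℝ α z v w := by
  rw [dv, fderiv_clm_apply h (differentiableAt_const w)]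
  simp

theorem dv2 {u : Cm n → Cm n →L[ℝ] Cm n →L[ℝ] ℝ} {z : Cm n} (h : DifferentiableAt ℝ u z)
    (a b c : Cm n) : dv (fun y => u y b c) z a = fderiv ℝ u z a b c := by
  rw [dv1 (α := fun y => u y b) (h.clm_apply (differentiableAt_const b)),
    fderiv_clm_apply h (differentiableAt_const b)]
  simp

theorem clF {u : Chart n X → Cm n → Cm n →L[ℝ] Cm n →L[ℝ] ℝ} (h : Cl2 n u) :
    ClF n fun e z v w => u e z v w where
  lin e x _ v := (u e (e x) v).toLinearMap.isLinear
  alt e x he v w := by
    have h1 := h.alt e x he (v + w)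
    simp only [map_add, ContinuousLinearMap.add_apply, h.alt e x he] at h1
    linarith
  sm e x he v w := ((h.sm e x he).clm_apply contDiffAt_const).clm_apply contDiffAt_const
  chg := h.chg
  cls e x he a b c := by
    have hd : DifferentiableAt ℝ (u e) (e x) := (h.sm e x he).differentiableAt (by simp)
    rw [dv2 hd, dv2 hd, dv2 hd]
    exact h.cls e x he a b c

theorem ex2 {α : Chart n X → Cm n → Cm n → ℝ} {u : Chart n X → Cm n → Cm n →L[ℝ] Cm n →L[ℝ] ℝ}
    (h : DiF n α fun e z v w => u e z v w) : Ex2 n u := by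
  let b := Module.finBasis ℝ (Cm n)
  let β : Chart n X → Cm n → Cm n →L[ℝ] ℝ := fun e z =>
    ∑ i, α e z (b i) • LinearMap.toContinuousLinearMap (b.coord i)
  have h1 : ∀ e x, At e x → ∀ v, β e (e x) v = α e (e x) v := fun e x he v => by
    have k := map_sum ((h.lin e x he).mk' _) (fun i => b.repr v i • b i) Finset.univ
    rw [b.sum_repr] at k
    refine Eq.trans ?_ k.symm
    simp only [β, ContinuousLinearMap.sum_apply, map_smul]
    exact Finset.sum_congr rfl fun i _ => mul_comm _ _
  have h2 : ∀ e x, At e x → ContDiffAt ℝ ∞ (β e) (e x) := fun e x he =>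
    ContDiffAt.sum fun i _ => ContDiffAt.smul (h.sm e x he (b i)) contDiffAt_const
  have h3 : ∀ e x, At e x → ∀ v w, fderiv ℝ (β e) (e x) v w = dv (fun z => α e z w) (e x) v :=
    fun e x he v w => by
      rw [← dv1 ((h2 e x he).differentiableAt (by simp)), dv, dv]
      refine congrArg (fun L : Cm n →L[ℝ] ℝ => L v) (EventuallyEq.fderiv_eq ?_)
      refine (e.open_target.eventually_mem (e.map_source he.2)).mono fun z hz => ?_
      have k := h1 e (e.symm z) ⟨he.1, e.map_target hz⟩ w
      rwa [e.right_inv hz] at k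
  refine ⟨β, h2, fun e e' x he he' v => ?_, fun e x he v w => ?_⟩
  · rw [h1 e x he, h1 e' x he', h.chg e e' x he he']
  · rw [h3 e x he, h3 e x he]
    exact h.dif e x he v w

theorem b2_of (h : Btwo n X) : B2 n X := fun u u' hu hu' =>
  let ⟨c, c', h1, _, h2⟩ := h _ _ (clF hu) (clF hu')
  ⟨c, c', h1, ex2 h2⟩

end Vale.Agent.P280Z.Fb
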