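import Vale.Agent.P280Z.Nf

/-!
# P280Z: Picard number one
-/

open scoped Manifold ContDiff
open Vale.Agent.P272.K Vale.Agent.P285.H281.FD Vale.Agent.P281Z
open Vale.Agent.P277 (Bd.inv)
open Vale.Agent.P277.HD (pull)

noncomputable section

namespace Vale.Agent.P280Z

variable (n : ℕ) {X : Type} [TopologicalSpace X] [ChartedSpace (Cm n) X]

/-- the line bundle `L` has degree zero on all curves -/
def NumTriv (L : Bd X) : Prop :=
  ∀ (C : Mf 1) (f : C.X → X), ConnectedSpace C.X → ContMDiff 𝓘(ℂ, Cm 1) 𝓘(ℂ, Cm n) ω f →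
    ¬ Pos 1 (pull f L) ∧ ¬ Pos 1 (Bd.inv (pull f L))

variable (X) in
/-- the Picard number is at most one: every line bundle is positive, negative or numerically
trivial -/
def Rho1 : Prop := ∀ L : Bd X, IsLB n L → Pos n L ∨ Pos n (Bd.inv L) ∨ NumTriv n L

end Vale.Agent.P280Z
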