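import Vale.Agent.P280Z.Fb.Defs
import Vale.Agent.P280Z.Cv.Two

/-!
# P280Z: stage two without the case of dimension six, Picard number one and pseudoindex four
-/

open scoped Manifold ContDiff Topology Matrix
open Set Filter
open Vale.Agent.P272.K Vale.Agent.P285.H281.FD Vale.Agent.P281Z Vale.Agent.P280Z.Mp
open Vale.Agent.P277 (Bd.inv)
open Vale.Agent.P280Z.Cv

noncomputable section

namespace Vale.Agent.P280Z.Fb

theorem rho1 {T : CT} (hT : T.OK) {n : ℕ} {V : Mf n} (hn : 0 < n) (hF : Fano n V.X)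
    (h : B2T T V) : Rho1 n V.X := by
  intro L hL
  have hc := hF.1
  have hX := ((Rh.fano_iff hT V).1 hF).2
  obtain ⟨c, c', h1, h2⟩ := h _ _ (hT.c1.deg V L) (Rh.dg_cX hT V)
  have h3 : c ≠ 0 := fun e => by
    rw [e, zero_smul, zero_add, smul_eq_zero] at h2
    have h4 := Ma.kc_vol hT hX (Classical.arbitrary _)
    rw [h2.resolve_left (h1.resolve_left fun k => k e), zero_pow hn.ne', map_zero] at h4
    exact lt_irrefl _ h4
  have h4 : T.c1 V L = (-c' / c) • Rh.cX T V := by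
    rw [div_eq_inv_mul, mul_smul, eq_inv_smul_iff₀ h3, neg_smul, eq_neg_iff_add_eq_zero, h2]
  rcases lt_trichotomy 0 (-c' / c) with k | k | k
  · exact Or.inl (hT.kp V L hL (h4 ▸ hT.po.smul _ k hX))
  · refine Or.inr (Or.inr fun C f _ hf => ?_)
    have hf' : HolM 1 n f := hf
    have h5 : T.c1 C (P277.HD.pull f L) = 0 := by
      rw [hT.c1.pull hf' L hL, h4, ← k, zero_smul, map_zero]
    have h6 : ¬ T.Kc C 0 := fun e => by
      have := Ma.kc_vol hT e (Classical.arbitrary _)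
      rw [pow_one, map_zero] at this
      exact lt_irrefl _ this
    refine ⟨fun e => h6 (h5 ▸ hT.c1.pos C _ (hf'.lb hL) e), fun e => h6 ?_⟩
    have h7 := hT.c1.pos C _ (lb_inv (hf'.lb hL)) e
    rwa [Cv.c1_inv hT.c1 (hf'.lb hL), h5, neg_zero] at h7
  · refine Or.inr (Or.inl (hT.kp V _ (lb_inv hL) ?_))
    rw [Cv.c1_inv hT.c1 hL, h4, ← neg_smul]
    exact hT.po.smul _ (neg_pos.2 k) hX

theorem r1x (c31 : CS 3 1) (c41 : CS 4 1) (c51 : CS 5 1) (c61 : CS 6 1) (c52 : CS 5 2)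
    (c63 : CS 6 3) (c64 : CS 6 4) {T : CT} (hT : Rh.Th T) {n : ℕ} (V : Mf n) (hn : 0 < n)
    (h6 : n ≤ 6) (hF : Fano n V.X) (hN : NefRC n V.X) (h2 : B2T T V)
    (hx : ¬ (n = 6 ∧ Iota n V.X 4)) : Gp.Gen n V.X := by
  obtain ⟨F₀, a₀, f1, f2, -, f3⟩ := Br.iot n V hn hF
  obtain ⟨j, ⟨F, g1, g2⟩, g3⟩ := Int.exists_least_of_bdd
    (P := fun a => ∃ F : Cm 2 → V.X, RC n F ∧ DegL (Bd.inv (Bd.can n V.X)) F a)
    ⟨0, fun a ⟨F, k1, k2⟩ => (deg_pos eqs hF k1 k2).le⟩ ⟨a₀, F₀, f1, f2⟩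
  obtain ⟨i, rfl⟩ := Int.eq_ofNat_of_zero_le (deg_pos eqs hF g1 g2).le
  have hI : Iota n V.X i := ⟨⟨F, g1, g2⟩, fun G a k1 k2 => g3 a ⟨G, k1, k2⟩⟩
  have hi : i ≤ n + 1 := by exact_mod_cast (g3 a₀ ⟨F₀, f1, f2⟩).trans f3
  rcases hi.eq_or_lt with rfl | hi
  · exact Br.pn n V hF (by exact_mod_cast hI.2)
  obtain ⟨h3, h4⟩ := two_le (brg_of eqs) Mp.maps hF hN hI
  obtain ⟨m, rfl⟩ := Nat.exists_eq_add_of_le' h3
  obtain ⟨k, hk⟩ := Nat.exists_eq_add_of_le' h4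
  obtain ⟨N, r, d, δ, P, pt, G, E, h⟩ := sit_of (brg_of eqs) Mp.maps Ma.nsx Ma.rel T hT.ok (m := m) V
    hn rfl hk.symm (by omega) hF hN hI h2
  have key : CS n m → Gp.Gen n V.X := fun c => c T hT G E h hN (by exact_mod_cast hI)
  rcases Nat.eq_zero_or_pos m with rfl | hm
  · exact key (c0 n (by omega))
  refine key ?_
  have hy : ¬ (n = 6 ∧ m = 2) := fun e => hx ⟨e.1, by
    have := hI
    rw [e.2] at this
    exact this⟩
  clear key h hI g2 g3 hk hx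
  have : m ≤ 4 := by omega
  interval_cases n <;> interval_cases m <;> first
    | omega | exact c31 | exact c41 | exact c51 | exact c61 | exact En.c42
    | exact c52 | exact En.c53 | exact c63 | exact c64

/-- stage two up to one case -/
def TWX : Prop := ∀ (n : ℕ) (X : Mf n), n ≤ 6 → Fano n X.X → NefT n X.X →
  ¬ (n = 6 ∧ Rho1 n X.X ∧ Iota n X.X 4) → Gp.RatHom n X.X

theorem twx_of (sys : Sq.SYS) (nsa : Sq.NSA) (p1 : Rh.PONE) (p2 : Rh.PTWO) (al : ALN)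
    (c31 : CS 3 1) (c41 : CS 4 1) (c51 : CS 5 1) (c61 : CS 6 1) (c52 : CS 5 2)
    (c64 : CS 6 4) : TWX := by
  have key : ∀ (n : ℕ) (X : Mf n), n ≤ 6 → Fano n X.X → NefT n X.X →
      ¬ (n = 6 ∧ Rho1 n X.X ∧ Iota n X.X 4) → Gp.Gen n X.X := by
    intro n
    induction n using Nat.strong_induction_on with
    | _ n ih =>
      intro V hn hF hN hx
      have hI : Rh.IH n := fun m hm W hW => ih m hm W (by omega) hW.1 hW.2 fun e => by omega
      rcases Nat.eq_zero_or_pos n with rfl | h0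
      · exact fun e x _ v => ⟨fun _ _ => 0, ⟨fun _ _ _ => analyticAt_const,
          fun _ _ _ _ _ => Subsingleton.elim _ _⟩, Subsingleton.elim _ _⟩
      obtain ⟨B⟩ := Rh.bas_of sys nsa Ma.rel nrc nbase th_ct h0 ⟨hF, hN⟩
      rcases subsingleton_or_nontrivial B.J with h | h
      · exact r1x c31 c41 c51 c61 c52 (c63_of (end_of Hr.hrr al Gm.fund (En.dp5 Hr.hrr))) c64 th_ct
          V h0 hn hF (nrc n V hN) (B.b2 h) fun e =>
            hx ⟨e.1, rho1 th_ct.ok h0 hF (B.b2 h), e.2⟩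
      by_cases k : ∃ j, (B.F j).m = 0
      · exact p1 _ th_ct V B hn hI ⟨hF, hN⟩ h k
      · exact p2 _ th_ct V B hn hI ⟨hF, hN⟩ h fun j => Nat.pos_of_ne_zero fun e => k ⟨j, e⟩
  exact fun n X hn hF hN hx =>
    have := hF.1
    Gp.of_pos X hF.2 (key n X hn hF hN hx)

end Vale.Agent.P280Z.Fb
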