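import Vale.Agent.P280Z.Fb.Top
import Vale.Agent.P280Z.Cv.Fb
import Vale.Agent.P280Z.Cv.OneA
import Vale.Agent.P280Z.G2.C41
import Vale.Agent.P280Z.G2.C51b
import Vale.Agent.P280Z.M2.C52
import Vale.Agent.P280Z.En.C64
import Vale.Agent.P280Z.En.C31
import Vale.Agent.P280Z.Pr.All
import Vale.Agent.P280Z.Po.All
import Vale.Agent.P280Z.Mb.Nsa
import Vale.Agent.P280Z.Sq.Fin

/-!
# P280Z: stage two, with two cases of dimension six and Picard number one as parameters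
-/

open Vale.Agent.P272.K Vale.Agent.P281Z
open Vale.Agent.P280Z.Cv

noncomputable section

namespace Vale.Agent.P280Z.Fb

theorem ih6 : Rh.IH 6 :=
  ihx Sq.sys Mb.nsa Po.pone Pr.ptwo En.c31 G2.c41 G2.c51 N52.c52 6 le_rfl

theorem six (V : Mf 6) (hF : Fano 6 V.X) (hN : NefT 6 V.X)
    (c61 : Rho1 6 V.X → Iota 6 V.X 3 → CS 6 1) (c62 : Rho1 6 V.X → Iota 6 V.X 4 → CS 6 2) :
    Gp.Gen 6 V.X := by
  obtain ⟨B⟩ := Rh.bas_of Sq.sys Mb.nsa Ma.rel nrc nbase th_ct (by norm_num) ⟨hF, hN⟩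
  rcases subsingleton_or_nontrivial B.J with h | h
  · have hr := rho1 th_ct.ok (by norm_num) hF (B.b2 h)
    refine Cv.r1x _ th_ct V hF (nrc 6 V hN) (B.b2 h) fun j h1 h2 h3 => ?_
    have : j ≤ 4 := by omega
    interval_cases j
    exacts [c61 hr h3, c62 hr h3, c63_of (end_of Hr.hrr Cv.al Gm.fund (En.dp5 Hr.hrr)), En.c64]
  by_cases k : ∃ j, (B.F j).m = 0
  · exact Po.pone _ th_ct V B le_rfl ih6 ⟨hF, hN⟩ h k
  · exact Pr.ptwo _ th_ct V B le_rfl ih6 ⟨hF, hN⟩ h fun j => Nat.pos_of_ne_zero fun e => k ⟨j, e⟩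

theorem gen {n : ℕ} (V : Mf n) (hn : n ≤ 6) (hF : Fano n V.X) (hN : NefT n V.X)
    (c61 : n = 6 → Rho1 n V.X → Iota n V.X 3 → CS 6 1)
    (c62 : n = 6 → Rho1 n V.X → Iota n V.X 4 → CS 6 2) : Gp.RatHom n V.X := by
  have := hF.1
  refine Gp.of_pos V hF.2 ?_
  rcases hn.eq_or_lt with rfl | h
  · exact six V hF hN (c61 rfl) (c62 rfl)
  · exact ih6 n h V ⟨hF, hN⟩

end Vale.Agent.P280Z.Fb
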